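import Vale.Agent.H16.Hadwiger

/-!
# P060 (Hadwiger's conjecture): closure under the Mycielski construction

If a graph `G` is `t`-colourable and has a `K_t` minor (that is, `χ(G) ≤ t ≤ h(G)`), then its
Mycielskian is `(t+1)`-colourable and has a `K_{t+1}` minor.  Hence the class of graphs
satisfying Hadwiger's conjecture is closed under the Mycielski construction, and all Mycielski
graphs (iterated Mycielskians of `K_2`: the 5-cycle, the Groetzsch graph, ...) satisfy it.
-/

namespace Vale.Agent.Results.P060.B_MycielskiClosure

open Vale.Agent.H16.Hadwiger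

theorem result :
    (∀ (V : Type) (G : SimpleGraph V) (t : ℕ), G.Colorable t → HasCliqueMinor G t →
      (mycielskian G).Colorable (t + 1) ∧ HasCliqueMinor (mycielskian G) (t + 1)) ∧
    (∀ k : ℕ, (mycGraph k).G.Colorable (k + 2) ∧ HasCliqueMinor (mycGraph k).G (k + 2)) :=
  ⟨fun _ G t hc hm => ⟨colorable_mycielskian G t hc, minor_mycielskian G t hm⟩, mycGraph_spec⟩

end Vale.Agent.Results.P060.B_MycielskiClosure
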