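import Vale.Agent.Results.P060.B_MycielskiClosure

/-!
# P060 (Hadwiger's conjecture): the Mycielski construction, with the closure statement in
existential form

The statement of `B_MycielskiClosure` together with its consequence in the form
that `χ ≤ h` is preserved: if for some `t` the graph `G` is `t`-colourable and has a `K_t` minor,
then for some `t'` the Mycielskian of `G` is `t'`-colourable and has a `K_{t'}` minor.
-/

namespace Vale.Agent.Results.P060.C_MycielskiHadwigerClosed

open Vale.Agent.H16.Hadwiger

theorem result :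
    ((∀ (V : Type) (G : SimpleGraph V) (t : ℕ), G.Colorable t → HasCliqueMinor G t →
      (mycielskian G).Colorable (t + 1) ∧ HasCliqueMinor (mycielskian G) (t + 1)) ∧
    (∀ k : ℕ, (mycGraph k).G.Colorable (k + 2) ∧ HasCliqueMinor (mycGraph k).G (k + 2))) ∧
    (∀ (V : Type) (G : SimpleGraph V), (∃ t : ℕ, G.Colorable t ∧ HasCliqueMinor G t) →
      ∃ t' : ℕ, (mycielskian G).Colorable t' ∧ HasCliqueMinor (mycielskian G) t') := by
  have h := Vale.Agent.Results.P060.B_MycielskiClosure.result
  refine ⟨h, ?_⟩
  rintro V G ⟨t, hc, hm⟩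
  exact ⟨t + 1, h.1 V G t hc hm⟩

end Vale.Agent.Results.P060.C_MycielskiHadwigerClosed
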